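import Vale.Agent.P302.A11.Data

namespace Vale.Agent.P302.A11

open Vale.Agent.P302

set_option maxRecDepth 100000 in
theorem chk2 : allT (chk cap items 1 tab1) tab2 = true := by decide +kernel

set_option maxRecDepth 100000 in
theorem chk3 : allT (chk cap items 2 tab2) tab3 = true := by decide +kernel

set_option maxRecDepth 100000 in
theorem chk4 : allT (chk cap items 3 tab3) tab4 = true := by decide +kernel

set_option maxRecDepth 100000 in
theorem chk5 : allT (chk cap items 4 tab4) tab5 = true := by decide +kernel

set_option maxRecDepth 100000 in
theorem chk6 : allT (chk cap items 5 tab5) tab6 = true := by decide +kernel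

set_option maxRecDepth 100000 in
theorem chk7 : allT (chk cap items 6 tab6) tab7 = true := by decide +kernel

set_option maxRecDepth 100000 in
theorem chk8 : allT (chk cap items 7 tab7) tab8 = true := by decide +kernel

set_option maxRecDepth 100000 in
theorem chk9 : allT (chk cap items 8 tab8) tab9 = true := by decide +kernel

set_option maxRecDepth 100000 in
theorem chk10 : allT (chk cap items 9 tab9) tab10 = true := by decide +kernel

set_option maxRecDepth 100000 in
theorem chk11 : allT (chk cap items 10 tab10) tab11 = true := by decide +kernel

theorem items_ok : ∀ s ∈ items, 0 < s ∧ s ≤ cap := by decide +kernel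

theorem full_dec : (dec items 8589934591 1).map Prod.fst = items := by decide +kernel

theorem not_pk : ¬ Pk cap 11 (items : Multiset ℕ) := by
  have hpos : ∀ s ∈ items, 0 < s := fun s hs => (items_ok s hs).1
  have h1 : Bad cap items 1 tab1 := Bad.lf _ _ _
  have h2 : Bad cap items 2 tab2 := h1.step hpos chk2
  have h3 : Bad cap items 3 tab3 := h2.step hpos chk3
  have h4 : Bad cap items 4 tab4 := h3.step hpos chk4
  have h5 : Bad cap items 5 tab5 := h4.step hpos chk5
  have h6 : Bad cap items 6 tab6 := h5.step hpos chk6
  have h7 : Bad cap items 7 tab7 := h6.step hpos chk7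
  have h8 : Bad cap items 8 tab8 := h7.step hpos chk8
  have h9 : Bad cap items 9 tab9 := h8.step hpos chk9
  have h10 : Bad cap items 10 tab10 := h9.step hpos chk10
  have h11 : Bad cap items 11 tab11 := h10.step hpos chk11
  have h := h11 8589934591 (by decide +kernel)
  unfold sizes at h
  rw [full_dec] at h
  exact h

theorem pats_ok : ∀ q ∈ pats, q.2.sum ≤ cap := by decide +kernel

theorem cover_ok : ∀ v ∈ items, 288 * items.count v ≤ (pats.map fun q => q.1 * q.2.count v).sum := by
  decide +kernel

theorem value_ok : (pats.map Prod.fst).sum = 3107 := by decide +kernel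

end Vale.Agent.P302.A11
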